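import Vale.Agent.P371.Gen.Core
import Vale.Agent.P371.Gen.Potential
import Vale.Agent.P371.Gen.Optimizer

/-!
The sharp one dimensional Lieb-Thirring constants for scalar and matrix potentials,
for all exponents `1/2 < γ < 3/2`.
-/

namespace Vale.Agent.Results.P371.LiebThirringSharp

open Vale.Agent.P371 Vale.Agent.P371.Gen MeasureTheory Real
open scoped ComplexOrder

/-- The scalar potential term is a convergent integral. -/
theorem integrable_scalarTerm {γ : ℝ} (hγ : 1 / 2 < γ) {W : ℝ → ℝ} (hW : Potential γ W)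
    {η η' ψ ψ' : ℝ → ℂ} (hη : Orbital η η') (hψ : Orbital ψ ψ') :
    Integrable fun x => (W x : ℂ) * (star (η x) * ψ x) := by
  have hM : MatPotential 1 γ (embedW 0 W) := by
    refine ⟨fun a b => ?_, fun x => ?_, ?_⟩
    · simp only [embedW, Matrix.diagonal_apply]
      have := Complex.measurable_ofReal.comp hW.meas
      split_ifs <;> first | exact this | exact measurable_const
    · refine Matrix.PosSemidef.diagonal fun a => ?_
      simp [Subsingleton.elim a 0, hW.nonneg x]
    · refine hW.int.congr (.of_forall fun x => ?_)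
      simp [embedW, eigPow_diag]
  refine (integrable_potTerm hM hγ.le hη hψ 0 0).mono'
    ((Complex.measurable_ofReal.comp hW.meas).aestronglyMeasurable.mul
      (hη.continuous.star.mul hψ.continuous).aestronglyMeasurable)
    (.of_forall fun x => le_of_eq ?_)
  simp [embedW]

/-- For `1/2 < γ < 3/2` and every `m ≥ 1`: `L_γ(m) = L_γ(1) = L^(1)_γ`, attained.
The integrability conjuncts record that every potential term in the weak eigenvalue equations is
a convergent integral. -/
theorem result :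
    ∀ γ : ℝ, 1 / 2 < γ → γ < 3 / 2 →
      IsLUB (ratios γ) (2 * ((γ - 1 / 2) / (γ + 1 / 2)) ^ (γ - 1 / 2) *
        (Gamma (γ + 1) / (2 * √π * Gamma (γ + 3 / 2)))) ∧
      2 * ((γ - 1 / 2) / (γ + 1 / 2)) ^ (γ - 1 / 2) *
        (Gamma (γ + 1) / (2 * √π * Gamma (γ + 3 / 2))) ∈ ratios γ ∧
      (∀ W : ℝ → ℝ, Potential γ W → ∀ η η' ψ ψ' : ℝ → ℂ, Orbital η η' → Orbital ψ ψ' →
        Integrable fun x => (W x : ℂ) * (star (η x) * ψ x)) ∧
      ∀ m : ℕ, 1 ≤ m →
        IsLUB (matRatios m γ) (2 * ((γ - 1 / 2) / (γ + 1 / 2)) ^ (γ - 1 / 2) *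
          (Gamma (γ + 1) / (2 * √π * Gamma (γ + 3 / 2)))) ∧
        2 * ((γ - 1 / 2) / (γ + 1 / 2)) ^ (γ - 1 / 2) *
          (Gamma (γ + 1) / (2 * √π * Gamma (γ + 3 / 2))) ∈ matRatios m γ ∧
        ∀ W : ℝ → Matrix (Fin m) (Fin m) ℂ, MatPotential m γ W →
          ∀ η η' ψ ψ' : ℝ → ℂ, Orbital η η' → Orbital ψ ψ' → ∀ a b,
            Integrable fun x => star (η x) * W x a b * ψ x := by
  intro γ hγ hγ'
  have hopt : L1 γ ∈ ratios γ := L1_mem_ratios hγ
  have hcb : ∀ m, CompressionBound γ m := fun m N => compression_bound hγ hγ'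
  have hle : ∀ r ∈ ratios γ, r ≤ L1 γ := fun r hr =>
    matRatios_le_of_compression hγ (hcb 1) (mem_matRatios_of_mem_ratios hγ 0 hr)
  refine ⟨⟨hle, fun b hb => hb hopt⟩, hopt,
    fun W hW η η' ψ ψ' hη hψ => integrable_scalarTerm hγ hW hη hψ, fun m hm => ?_⟩
  refine ⟨isLUB_matRatios_of_compression hγ hm (hcb m) hopt, ?_, ?_⟩
  · obtain ⟨k, rfl⟩ : ∃ k, m = k + 1 := ⟨m - 1, by omega⟩
    exact mem_matRatios_of_mem_ratios hγ k hopt
  · intro W hW η η' ψ ψ' hη hψ a b
    refine (integrable_potTerm hW hγ.le hη hψ a b).mono'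
      ((hη.continuous.star.aestronglyMeasurable.mul (hW.meas a b).aestronglyMeasurable).mul
        hψ.continuous.aestronglyMeasurable) (.of_forall fun x => le_of_eq ?_)
    rw [norm_mul, norm_mul, norm_star]
    ring

end Vale.Agent.Results.P371.LiebThirringSharp
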